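import Vale.Agent.P218N.Curve.Ode
import Mathlib.Analysis.InnerProductSpace.PiL2
import Mathlib.Analysis.InnerProductSpace.Calculus
import Mathlib.Analysis.Complex.RealDeriv
import Mathlib.MeasureTheory.Integral.IntervalIntegral.FundThmCalculus
import Mathlib.Topology.Order.MonotoneContinuity

/-!
# P218N, plane shrinking curves without crossing: lines through the origin and the circle
-/

open Filter Topology Set Real
open scoped RealInnerProductSpace ComplexConjugate

noncomputable section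

namespace Vale.Agent.P218N.Curve

namespace Sys

variable {a p ϑ : ℝ → ℝ}

/-- the polar angle -/
theorem d_polar (S : Sys a p ϑ) (hp : ∀ s, 0 < p s) (s : ℝ) :
    HasDerivAt (fun s => ϑ s + arctan (a s / p s)) (p s / (a s ^ 2 + p s ^ 2)) s := by
  refine ((S.dϑ s).fun_add (((S.da s).fun_div (S.dp s) (hp s).ne').arctan)).congr_deriv ?_
  have := (hp s).ne'
  have : a s ^ 2 + p s ^ 2 ≠ 0 := by have := hp s; positivity
  have : p s ^ 2 + a s ^ 2 ≠ 0 := by have := hp s; positivity
  field_simp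
  ring

/-- two points of the curve with the same distance to the origin, one full turn apart -/
theorem exists_meet (S : Sys a p ϑ) (hp : ∀ s, 0 < p s) (hn : ∀ s, a s = 0 → p s ^ 2 ≠ 2) :
    ∃ s t, a t ^ 2 + p t ^ 2 = a s ^ 2 + p s ^ 2 ∧
      ϑ t + arctan (a t / p t) = ϑ s + arctan (a s / p s) + 2 * π := by
  obtain ⟨c, c0, R, h⟩ := S.bounds hp
  set ψ : ℝ → ℝ := fun s => ϑ s + arctan (a s / p s) with hψ
  have m : StrictMono ψ := fun _ _ r => smono_of_deriv (S.d_polar hp) r fun x _ => by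
    have := hp x
    positivity
  have cψ : Continuous ψ := continuous_iff_continuousAt.2 fun x => (S.d_polar hp x).continuousAt
  have lin : ∀ s t, s ≤ t → ϑ s - c / 2 * s ≤ ϑ t - c / 2 * t := fun s t r =>
    mono_of_deriv (fun s => (S.dϑ s).fun_sub ((hasDerivAt_id' s).const_mul (c / 2))) r
      fun x _ => by linarith [(h x).1]
  have sj : Function.Surjective ψ := by
    refine cψ.surjective ?_ ?_
    · refine tendsto_atTop_mono' atTop (f₁ := fun s => c / 2 * s + (ϑ 0 - π / 2)) ?_
        (tendsto_atTop_add_const_right _ _ (tendsto_id.const_mul_atTop (half_pos c0)))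
      filter_upwards [eventually_ge_atTop 0] with s hs
      have := lin 0 s hs
      have := neg_pi_div_two_lt_arctan (a s / p s)
      simp only [hψ]
      linarith
    · refine tendsto_atBot_mono' atBot (f₂ := ψ) (f₁ := fun s => c / 2 * s + (ϑ 0 + π / 2)) ?_
        (tendsto_atBot_add_const_right _ _ (tendsto_id.const_mul_atBot (half_pos c0)))
      filter_upwards [eventually_le_atBot 0] with s hs
      have := lin s 0 hs
      have := arctan_lt_pi_div_two (a s / p s)
      simp only [hψ]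
      linarith
  let Ψ := m.orderIsoOfSurjective ψ sj
  let σ : ℝ → ℝ := fun s => Ψ.symm (ψ s + 2 * π)
  have cσ : Continuous σ := Ψ.symm.continuous.comp (cψ.add continuous_const)
  have eσ : ∀ s, ψ (σ s) = ψ s + 2 * π := fun s => Ψ.apply_symm_apply _
  have cp : Continuous p := continuous_iff_continuousAt.2 fun x => (S.dp x).continuousAt
  obtain ⟨⟨s₁, z₁, q₁⟩, s₂, z₂, q₂⟩ := S.exists_both hp hn
  -- `p` is extremal at the zeros of `a`
  have key : ∀ s t, a s = 0 → p s * exp (-(p s ^ 2 / 4)) ≤ p t * exp (-(p t ^ 2 / 4)) := by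
    intro s t hs
    have e1 : p s * exp (-(p s ^ 2 / 4)) = c := by
      rw [mul_comm, exp_neg, inv_mul_eq_iff_eq_mul₀ (exp_pos _).ne', mul_comm]
      simpa [hs] using (h s).2.2.2
    have e2 : p t * exp (-(p t ^ 2 / 4)) = c * exp (a t ^ 2 / 4) := by
      conv_lhs => rw [mul_comm, (h t).2.2.2, mul_comm, mul_assoc, ← (h t).2.2.2, ← exp_add]
      congr 2
      ring
    rw [e1, e2]
    exact le_mul_of_one_le_right c0.le (one_le_exp (by positivity))
  have dg : ∀ x : ℝ, HasDerivAt (fun x : ℝ => x * exp (-(x ^ 2 / 4)))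
      ((1 - x ^ 2 / 2) * exp (-(x ^ 2 / 4))) x := fun x => by
    refine ((hasDerivAt_id' x).fun_mul
      (((hasDerivAt_id' x).fun_pow 2).div_const 4).fun_neg.exp).congr_deriv ?_
    push_cast
    ring
  have k1 : ∀ t, p s₁ ≤ p t := fun t => not_lt.1 fun r => (key s₁ t z₁).not_gt
    (smono_of_deriv dg r fun x hx => mul_pos (by nlinarith [hx.1, hx.2, hp t]) (exp_pos _))
  have k2 : ∀ t, p t ≤ p s₂ := fun t => not_lt.1 fun r => (key s₂ t z₂).not_gt (neg_lt_neg_iff.1
    (smono_of_deriv (fun x => (dg x).fun_neg) r fun x hx => neg_pos.2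
      (mul_neg_of_neg_of_pos (by nlinarith [hx.1, hx.2, hp s₂]) (exp_pos _))))
  obtain ⟨s, hs⟩ := intermediate_value_univ s₂ s₁ ((cp.comp cσ).sub cp)
    (show (0 : ℝ) ∈ Icc _ _ from ⟨sub_nonpos.2 (k2 _), sub_nonneg.2 (k1 _)⟩)
  refine ⟨s, σ s, ?_, eσ s⟩
  have e : p (σ s) = p s := sub_eq_zero.1 hs
  have := exp_injective (mul_left_cancel₀ c0.ne'
    ((h (σ s)).2.2.2.symm.trans (e.trans (h s).2.2.2)))
  linarith

end Sys

theorem polar {x y : ℝ} (hy : 0 < y) : ((x : ℂ) + y * Complex.I) =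
    √(x ^ 2 + y ^ 2) * Complex.I * Complex.exp (-(arctan (x / y) * Complex.I)) := by
  have e : √(x ^ 2 + y ^ 2) = y * √(1 + (x / y) ^ 2) := by
    rw [← sqrt_sq hy.le, ← sqrt_mul (sq_nonneg _), sqrt_sq hy.le]
    congr 1
    field_simp
    ring
  have h0 : √(1 + (x / y) ^ 2) ≠ 0 := by positivity
  have e1 : √(x ^ 2 + y ^ 2) * cos (arctan (x / y)) = y := by
    rw [e, cos_arctan]
    field_simp
  have e2 : √(x ^ 2 + y ^ 2) * sin (arctan (x / y)) = x := by
    rw [e, sin_arctan]
    field_simp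
  rw [← neg_mul, ← Complex.ofReal_neg, Complex.exp_mul_I, ← Complex.ofReal_cos,
    ← Complex.ofReal_sin, cos_neg, sin_neg]
  generalize cos (arctan (x / y)) = c at e1
  generalize sin (arctan (x / y)) = s at e2
  apply Complex.ext <;> simp [e1, e2]

/-- a unit speed curve with curvature vector minus one half of the normal part of the position -/
structure Shr {V : Type*} [NormedAddCommGroup V] [InnerProductSpace ℝ V] (γ T : ℝ → V) : Prop where
  dγ : ∀ s, HasDerivAt γ (T s) s
  unit : ∀ s, ‖T s‖ = 1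
  dT : ∀ s, HasDerivAt T (-(1 / 2 : ℝ) • (γ s - ⟪γ s, T s⟫ • T s)) s

/-- the curve does not cross itself transversally -/
def NoCross {V : Type*} [Neg V] (γ T : ℝ → V) : Prop :=
  ∀ s t, γ s = γ t → T s = T t ∨ T s = -T t

namespace Shr

theorem rev {V : Type*} [NormedAddCommGroup V] [InnerProductSpace ℝ V] {γ T : ℝ → V}
    (h : Shr γ T) : Shr (fun s => γ (-s)) fun s => -T (-s) :=
  ⟨fun s => ((h.dγ (-s)).scomp s (hasDerivAt_neg s)).congr_deriv (by simp),
    fun s => by simp [h.unit],
    fun s => ((h.dT (-s)).scomp s (hasDerivAt_neg s)).neg.congr_deriv (by simp)⟩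

theorem map {V W : Type*} [NormedAddCommGroup V] [InnerProductSpace ℝ V] [NormedAddCommGroup W]
    [InnerProductSpace ℝ W] {γ T : ℝ → V} (h : Shr γ T) (L : V →ₗᵢ[ℝ] W) :
    Shr (fun s => L (γ s)) fun s => L (T s) :=
  ⟨fun s => L.toContinuousLinearMap.hasFDerivAt.comp_hasDerivAt s (h.dγ s),
    fun s => by simp [h.unit], fun s =>
      (L.toContinuousLinearMap.hasFDerivAt.comp_hasDerivAt s (h.dT s)).congr_deriv (by simp)⟩

variable {γ T : ℝ → ℂ}

theorem mul_conj (h : Shr γ T) (s : ℝ) : T s * conj (T s) = 1 := by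
  rw [Complex.mul_conj, Complex.normSq_eq_norm_sq, h.unit]
  simp

theorem eq_mul (h : Shr γ T) (s : ℝ) :
    γ s = (((γ s * conj (T s)).re : ℂ) + (γ s * conj (T s)).im * Complex.I) * T s := by
  rw [Complex.re_add_im, mul_assoc, mul_comm (conj (T s)), h.mul_conj, mul_one]

theorem dT' (h : Shr γ T) (s : ℝ) :
    HasDerivAt T (-(((γ s * conj (T s)).im / 2 : ℝ) * Complex.I) * T s) s := by
  refine (h.dT s).congr_deriv ?_
  have e : ⟪γ s, T s⟫ = (γ s * conj (T s)).re := by
    rw [real_inner_comm, Complex.inner]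
  rw [e]
  conv_lhs => enter [2, 1]; rw [h.eq_mul s]
  simp only [Complex.real_smul]
  push_cast
  ring

theorem d_prod (h : Shr γ T) (s : ℝ) : HasDerivAt (fun s => γ s * conj (T s))
    (1 + ((γ s * conj (T s)).im / 2 : ℝ) * Complex.I * (γ s * conj (T s))) s := by
  have d : HasDerivAt (fun s => conj (T s))
      (conj (-(((γ s * conj (T s)).im / 2 : ℝ) * Complex.I) * T s)) s :=
    Complex.conjCLE.toContinuousLinearMap.hasFDerivAt.comp_hasDerivAt s (h.dT' s)
  refine ((h.dγ s).fun_mul d).congr_deriv ?_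
  rw [h.mul_conj, map_mul, map_neg, map_mul, Complex.conj_ofReal, Complex.conj_I]
  ring

theorem sys (h : Shr γ T) : ∃ ϑ, Sys (fun s => (γ s * conj (T s)).re)
    (fun s => (γ s * conj (T s)).im) ϑ := by
  have dp : ∀ s, HasDerivAt (fun s => (γ s * conj (T s)).im)
      ((γ s * conj (T s)).re * (γ s * conj (T s)).im / 2) s := fun s => by
    refine (Complex.imCLM.hasFDerivAt.comp_hasDerivAt s (h.d_prod s)).congr_deriv ?_
    generalize γ s * conj (T s) = z
    simp
    ring
  have cp : Continuous fun s => (γ s * conj (T s)).im / 2 :=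
    (continuous_iff_continuousAt.2 fun x => (dp x).continuousAt).div_const 2
  refine ⟨fun s => ∫ x in (0 : ℝ)..s, (γ x * conj (T x)).im / 2, fun s => ?_, dp,
    fun s => (cp.integral_hasStrictDerivAt 0 s).hasDerivAt⟩
  refine (Complex.reCLM.hasFDerivAt.comp_hasDerivAt s (h.d_prod s)).congr_deriv ?_
  generalize γ s * conj (T s) = z
  simp
  ring

/-- the case of positive support function -/
theorem circle_of_pos (h : Shr γ T) (hc : NoCross γ T) (hp : ∀ s, 0 < (γ s * conj (T s)).im)
    (s : ℝ) : (γ s * conj (T s)).re = 0 ∧ (γ s * conj (T s)).im ^ 2 = 2 := by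
  obtain ⟨ϑ, S⟩ := h.sys
  by_contra k
  obtain ⟨u, v, e1, e2⟩ := S.exists_meet hp fun s' h1 h2 => k (S.equil hp h1 h2 s)
  have d : ∀ s, HasDerivAt (fun s => T s * Complex.exp (ϑ s * Complex.I)) 0 s := fun s => by
    refine ((h.dT' s).fun_mul (((S.dϑ s).ofReal_comp.mul_const Complex.I).cexp)).congr_deriv ?_
    ring
  have c : ∀ s t, T s * Complex.exp (ϑ s * Complex.I) = T t * Complex.exp (ϑ t * Complex.I) :=
    is_const_of_deriv_eq_zero (fun s => (d s).differentiableAt) fun s => (d s).deriv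
  have rep : ∀ s, γ s = √((γ s * conj (T s)).re ^ 2 + (γ s * conj (T s)).im ^ 2) * Complex.I *
      (T 0 * Complex.exp (ϑ 0 * Complex.I)) * Complex.exp (-((ϑ s +
        arctan ((γ s * conj (T s)).re / (γ s * conj (T s)).im) : ℝ) * Complex.I)) := fun s => by
    conv_lhs => rw [h.eq_mul s, polar (hp s)]
    rw [c 0 s, mul_assoc _ (T s * _), mul_assoc (T s), ← Complex.exp_add, mul_assoc _ _ (T s),
      mul_comm _ (T s)]
    congr 3
    push_cast
    ring
  have e3 : γ v = γ u := by
    rw [rep v, rep u, e1, e2]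
    congr 1
    rw [Complex.exp_eq_exp_iff_exists_int]
    exact ⟨-1, by push_cast; ring⟩
  have e4 : T v = T u := (hc v u e3).resolve_right fun e => by
    have h1 := hp v
    rw [e3, e, map_neg, mul_neg, Complex.neg_im] at h1
    linarith [hp u]
  refine k (S.closed hp (t₀ := u) (L := v - u) ?_ ?_ ?_ s) <;> rw [add_sub_cancel]
  · simp only [e3, e4]
  · simp only [e3, e4]
  · simp only [e3, e4] at e2
    linarith

/-- classification in the complex plane -/
theorem classify_complex (h : Shr γ T) (hc : NoCross γ T) :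
    (∀ s, T s = T 0 ∧ γ s = (⟪γ 0, T 0⟫ + s) • T 0) ∨ ∀ s, ‖γ s‖ ^ 2 = 2 ∧ ⟪γ s, T s⟫ = 0 := by
  have ip : ∀ z w : ℂ, ⟪z, w⟫ = (z * conj w).re := fun z w => by
    rw [real_inner_comm, Complex.inner]
  have fin : ∀ {γ T : ℝ → ℂ}, Shr γ T → NoCross γ T → (∀ s, 0 < (γ s * conj (T s)).im) →
      ∀ s, ‖γ s‖ ^ 2 = 2 ∧ ⟪γ s, T s⟫ = 0 := fun {γ T} h hc hp s => by
    obtain ⟨e1, e2⟩ := h.circle_of_pos hc hp s
    refine ⟨?_, (ip _ _).trans e1⟩
    have : ‖γ s * conj (T s)‖ ^ 2 = 2 := by
      rw [Complex.sq_norm, Complex.normSq_apply, e1, ← sq, ← sq, e2]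
      ring
    rwa [norm_mul, Complex.norm_conj, h.unit, mul_one] at this
  obtain ⟨ϑ, S⟩ := h.sys
  obtain ⟨c, e⟩ := S.first
  rcases lt_trichotomy c 0 with r | rfl | r
  · refine .inr fun s => ?_
    have := fin h.rev (fun u v k => (hc _ _ k).imp (congrArg Neg.neg) (congrArg Neg.neg))
      (fun u => by
        rw [map_neg, mul_neg, Complex.neg_im, neg_pos, e]
        exact mul_neg_of_neg_of_pos r (exp_pos _)) (-s)
    simpa only [neg_neg, inner_neg_right, neg_eq_zero] using this
  · have d : ∀ s, HasDerivAt T 0 s := fun s => (h.dT' s).congr_deriv (by rw [e s]; simp)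
    have c : ∀ s, T s = T 0 := fun s =>
      is_const_of_deriv_eq_zero (fun s => (d s).differentiableAt) (fun s => (d s).deriv) s 0
    have a : ∀ s, (γ s * conj (T s)).re = (γ 0 * conj (T 0)).re + s := fun s => by
      have := const_of_deriv (f := fun s => (γ s * conj (T s)).re - s) (fun s =>
        ((S.da s).fun_sub (hasDerivAt_id' s)).congr_deriv (by rw [e s]; simp)) s 0
      linarith
    refine .inl fun s => ⟨c s, ?_⟩
    rw [h.eq_mul s, e s, a s, c s, ip]
    simp
  · exact .inr (fin h hc fun s => by rw [e]; positivity)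

end Shr

/-- **Plane shrinking curves.** A complete shrinking curve without transversal crossing in a
Euclidean plane is a line through the origin or lies on the circle of radius `√2`. -/
theorem classify {V : Type*} [NormedAddCommGroup V] [InnerProductSpace ℝ V]
    (hV : Module.finrank ℝ V = 2) {γ T : ℝ → V} (h : Shr γ T) (hc : NoCross γ T) :
    (∀ s, T s = T 0 ∧ γ s = (⟪γ 0, T 0⟫ + s) • T 0) ∨ ∀ s, ‖γ s‖ ^ 2 = 2 ∧ ⟪γ s, T s⟫ = 0 := by
  have : FiniteDimensional ℝ V := Module.finite_of_finrank_eq_succ hV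
  let L : V ≃ₗᵢ[ℝ] ℂ := (Complex.isometryOfOrthonormal
    ((stdOrthonormalBasis ℝ V).reindex (finCongr hV))).symm
  have := (h.map L.toLinearIsometry).classify_complex fun s t k =>
    (hc s t (L.injective k)).imp (congrArg L) fun k => by simp [k]
  refine this.imp (fun k s => ⟨L.injective (k s).1, L.injective ?_⟩) fun k s => ?_
  · simpa using (k s).2
  · simpa using k s

end Vale.Agent.P218N.Curve
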