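import Mathlib.Analysis.SpecialFunctions.Trigonometric.ArctanDeriv
import Mathlib.Analysis.SpecialFunctions.ExpDeriv
import Mathlib.Analysis.Calculus.Deriv.MeanValue
import Mathlib.Analysis.SpecialFunctions.Trigonometric.Deriv

/-!
# P218N, plane shrinking curves: the system `a' = 1 - p^2/2`, `p' = a p / 2`, `ϑ' = p / 2`
-/

open Filter Topology Set Real

noncomputable section

namespace Vale.Agent.P218N.Curve

theorem const_of_deriv {f : ℝ → ℝ} (h : ∀ s, HasDerivAt f 0 s) (s t : ℝ) : f s = f t :=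
  is_const_of_deriv_eq_zero (fun s => (h s).differentiableAt) (fun s => (h s).deriv) s t

theorem mono_of_deriv {f f' : ℝ → ℝ} (h : ∀ s, HasDerivAt f (f' s) s) {s t : ℝ} (hst : s ≤ t)
    (h0 : ∀ x ∈ Ioo s t, 0 ≤ f' x) : f s ≤ f t :=
  monotoneOn_of_deriv_nonneg (convex_Icc s t) (fun x _ => (h x).continuousAt.continuousWithinAt)
    (fun x _ => (h x).differentiableAt.differentiableWithinAt)
    (fun x hx => by rw [(h x).deriv]; exact h0 x (by simpa using hx))
    (left_mem_Icc.2 hst) (right_mem_Icc.2 hst) hst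

theorem smono_of_deriv {f f' : ℝ → ℝ} (h : ∀ s, HasDerivAt f (f' s) s) {s t : ℝ} (hst : s < t)
    (h0 : ∀ x ∈ Ioo s t, 0 < f' x) : f s < f t :=
  strictMonoOn_of_deriv_pos (convex_Icc s t) (fun x _ => (h x).continuousAt.continuousWithinAt)
    (fun x hx => by rw [(h x).deriv]; exact h0 x (by simpa using hx))
    (left_mem_Icc.2 hst.le) (right_mem_Icc.2 hst.le) hst

/-- a nonnegative function with `|D'| ≤ K D` which vanishes somewhere vanishes everywhere -/
theorem gron {D D' : ℝ → ℝ} {K : ℝ} (h : ∀ s, HasDerivAt D (D' s) s) (h0 : ∀ s, 0 ≤ D s)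
    (hK : ∀ s, |D' s| ≤ K * D s) {t₀ : ℝ} (e : D t₀ = 0) (t : ℝ) : D t = 0 := by
  refine le_antisymm ?_ (h0 t)
  rcases le_total t₀ t with r | r
  · have := mono_of_deriv (f := fun s => -(D s * exp (-(K * s))))
      (fun s => ((h s).mul (((hasDerivAt_id' s).const_mul K).fun_neg.exp)).neg) r (fun x _ => by
        have := (abs_le.1 (hK x)).2
        nlinarith [exp_pos (-(K * x))])
    simp only [e, zero_mul, neg_zero] at this
    nlinarith [exp_pos (-(K * t))]
  · have := mono_of_deriv (f := fun s => D s * exp (K * s))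
      (fun s => (h s).mul (((hasDerivAt_id' s).const_mul K).exp)) r (fun x _ => by
        have := (abs_le.1 (hK x)).1
        nlinarith [exp_pos (K * x)])
    simp only [e, zero_mul] at this
    nlinarith [exp_pos (K * t)]

/-- the system for the tangential and normal parts of the position, and the turning angle -/
structure Sys (a p ϑ : ℝ → ℝ) : Prop where
  da : ∀ s, HasDerivAt a (1 - p s ^ 2 / 2) s
  dp : ∀ s, HasDerivAt p (a s * p s / 2) s
  dϑ : ∀ s, HasDerivAt ϑ (p s / 2) s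

namespace Sys

variable {a p ϑ a' p' ϑ' : ℝ → ℝ}

theorem shift (S : Sys a p ϑ) (L : ℝ) :
    Sys (fun s => a (s + L)) (fun s => p (s + L)) fun s => ϑ (s + L) :=
  ⟨fun s => (S.da _).comp_add_const s L, fun s => (S.dp _).comp_add_const s L,
    fun s => (S.dϑ _).comp_add_const s L⟩

/-- the first integral -/
theorem first (S : Sys a p ϑ) : ∃ c, ∀ s, p s = c * exp ((a s ^ 2 + p s ^ 2) / 4) := by
  have h := const_of_deriv (f := fun s => p s * exp (-((a s ^ 2 + p s ^ 2) / 4))) fun s => by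
    refine ((S.dp s).fun_mul ((((S.da s).fun_pow 2).fun_add
      ((S.dp s).fun_pow 2)).div_const 4).fun_neg.exp).congr_deriv ?_
    push_cast
    ring
  exact ⟨p 0 * exp (-((a 0 ^ 2 + p 0 ^ 2) / 4)), fun s => by
    rw [← h s 0, mul_assoc, ← exp_add, neg_add_cancel, exp_zero, mul_one]⟩

theorem bounds (S : Sys a p ϑ) (hp : ∀ s, 0 < p s) :
    ∃ c > 0, ∃ R, ∀ s, c ≤ p s ∧ p s ≤ R ∧ |a s| ≤ R ∧ p s = c * exp ((a s ^ 2 + p s ^ 2) / 4) := by
  obtain ⟨c, hc⟩ := S.first
  have c0 : 0 < c := pos_of_mul_pos_of_pos_right' (hc 0 ▸ hp 0) (exp_pos _)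
  refine ⟨c, c0, 4 / c, fun s => ?_⟩
  have e1 := add_one_le_exp ((a s ^ 2 + p s ^ 2) / 4)
  have e2 := mul_le_mul_of_nonneg_left e1 c0.le
  rw [← hc s] at e2
  have e3 := hp s
  have e4 : p s ≤ 4 / c := by
    rw [le_div_iff₀ c0]
    nlinarith [mul_nonneg c0.le (sq_nonneg (a s))]
  refine ⟨by nlinarith [mul_nonneg c0.le (add_nonneg (sq_nonneg (a s)) (sq_nonneg (p s)))], e4,
    abs_le_of_sq_le_sq' ?_ (by positivity) |>.elim fun u v => abs_le.2 ⟨u, v⟩, hc s⟩
  have e5 : c * a s ^ 2 ≤ 4 * (4 / c) := by nlinarith [mul_nonneg c0.le (sq_nonneg (p s))]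
  have e6 : c * (4 / c) ^ 2 = 4 * (4 / c) := by field_simp
  exact le_of_mul_le_mul_left (e6 ▸ e5) c0
where
  pos_of_mul_pos_of_pos_right' {x y : ℝ} (h : 0 < x * y) (hy : 0 < y) : 0 < x :=
    (pos_iff_pos_of_mul_pos h).2 hy

/-- uniqueness -/
theorem uniq (S : Sys a p ϑ) (S' : Sys a' p' ϑ') (hp : ∀ s, 0 < p s) (hp' : ∀ s, 0 < p' s)
    {t₀ : ℝ} (e1 : a t₀ = a' t₀) (e2 : p t₀ = p' t₀) (t : ℝ) : a t = a' t ∧ p t = p' t := by
  obtain ⟨c, -, R, h⟩ := S.bounds hp
  obtain ⟨c', -, R', h'⟩ := S'.bounds hp'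
  have := gron (D := fun s => (a s - a' s) ^ 2 + (p s - p' s) ^ 2) (K := 2 * (R + R'))
    (fun s => (((S.da s).fun_sub (S'.da s)).fun_pow 2).fun_add
      (((S.dp s).fun_sub (S'.dp s)).fun_pow 2)) (fun s => by positivity) (fun s => by
        obtain ⟨-, u1, u2, -⟩ := h s
        obtain ⟨-, v1, v2, -⟩ := h' s
        have u3 := hp s
        have v3 := hp' s
        obtain ⟨u4, u5⟩ := abs_le.1 u2
        have e : ((2 : ℕ) : ℝ) * (a s - a' s) ^ (2 - 1) * (1 - p s ^ 2 / 2 - (1 - p' s ^ 2 / 2)) +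
            ((2 : ℕ) : ℝ) * (p s - p' s) ^ (2 - 1) * (a s * p s / 2 - a' s * p' s / 2) =
            a s * (p s - p' s) ^ 2 - p s * ((a s - a' s) * (p s - p' s)) := by
          push_cast
          ring
        rw [e]
        have w1 : 0 ≤ R' := v3.le.trans v1
        have w2 := sq_nonneg (a s - a' s + (p s - p' s))
        have w3 := sq_nonneg (a s - a' s - (p s - p' s))
        have w4 := sq_nonneg (a s - a' s)
        have w5 := sq_nonneg (p s - p' s)
        refine abs_le.2 ⟨?_, ?_⟩ <;> nlinarith [mul_nonneg w1 w4, mul_nonneg w1 w5,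
          mul_nonneg u3.le w2, mul_nonneg u3.le w3, mul_nonneg (sub_nonneg.2 u1) w4,
          mul_nonneg (sub_nonneg.2 u1) w5, mul_nonneg (sub_nonneg.2 u5) w5,
          mul_nonneg (sub_nonneg.2 u4) w5]) (t₀ := t₀) (by simp [e1, e2]) t
  constructor <;> nlinarith [sq_nonneg (a t - a' t), sq_nonneg (p t - p' t)]

theorem equil (S : Sys a p ϑ) (hp : ∀ s, 0 < p s) {t₀ : ℝ} (e1 : a t₀ = 0) (e2 : p t₀ ^ 2 = 2)
    (t : ℝ) : a t = 0 ∧ p t ^ 2 = 2 := by
  have S' : Sys (fun _ => 0) (fun _ => p t₀) fun s => p t₀ / 2 * s :=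
    ⟨fun s => by simpa [e2] using hasDerivAt_const s (0 : ℝ), fun s => by
      simpa using hasDerivAt_const s (p t₀), fun s => by
      simpa using (hasDerivAt_id' s).const_mul (p t₀ / 2)⟩
  have := S.uniq S' hp (fun _ => hp t₀) e1 rfl t
  exact ⟨this.1, this.2 ▸ e2⟩

/-- `a` cannot keep a sign -/
theorem not_sign (S : Sys a p ϑ) (hp : ∀ s, 0 < p s) {σ : ℝ} (hσ : σ = 1 ∨ σ = -1) (t₀ : ℝ) :
    ¬ ∀ s ≥ t₀, 0 < σ * a s := by
  intro H
  obtain ⟨c, c0, R, h⟩ := S.bounds hp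
  have mp : ∀ s t, t₀ ≤ s → s ≤ t → σ * p s ≤ σ * p t := fun s t h1 h2 =>
    mono_of_deriv (fun s => (S.dp s).const_mul σ) h2 fun x hx => by
      have := mul_pos (H x (h1.trans hx.1.le)) (hp x)
      linarith
  by_cases k : ∀ s ≥ t₀, 0 ≤ σ * (1 - p s ^ 2 / 2)
  · have ma : ∀ s ≥ t₀, σ * a t₀ ≤ σ * a s := fun s hs =>
      mono_of_deriv (fun s => (S.da s).const_mul σ) hs fun x hx => k x hx.1.le
    have a0 := H t₀ le_rfl
    set δ := σ * a t₀ * c / 2 with hδ
    have δ0 : 0 < δ := by positivity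
    have := mono_of_deriv (f := fun s => σ * p s - δ * s)
      (fun s => ((S.dp s).const_mul σ).fun_sub ((hasDerivAt_id' s).const_mul δ))
      (s := t₀) (t := t₀ + (2 * R + 1) / δ) (by
        have : 0 ≤ R := (hp 0).le.trans (h 0).2.1
        have : 0 ≤ (2 * R + 1) / δ := by positivity
        linarith) fun x hx => by
          have := mul_le_mul (ma x hx.1.le) (h x).1 c0.le (a0.le.trans (ma x hx.1.le))
          linarith
    rw [mul_add, mul_div_cancel₀ _ δ0.ne'] at this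
    have u1 := (h t₀).2.1
    have u2 := (h (t₀ + (2 * R + 1) / δ)).2.1
    have u3 := hp t₀
    have u4 := hp (t₀ + (2 * R + 1) / δ)
    rcases hσ with rfl | rfl <;> linarith
  · push Not at k
    obtain ⟨t₁, h1, h2⟩ := k
    set δ := -(σ * (1 - p t₁ ^ 2 / 2)) with hδ
    have δ0 : 0 < δ := by linarith
    have R0 : 0 ≤ R := (hp 0).le.trans (h 0).2.1
    have q : 0 ≤ (R + 1) / δ := by positivity
    have := mono_of_deriv (f := fun s => -(σ * a s) - δ * s)
      (fun s => ((S.da s).const_mul σ).fun_neg.fun_sub ((hasDerivAt_id' s).const_mul δ))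
      (s := t₁) (t := t₁ + (R + 1) / δ) (by linarith) fun x hx => by
        have u1 := mp t₁ x h1 hx.1.le
        have u2 := hp x
        have u3 := hp t₁
        rcases hσ with rfl | rfl <;> nlinarith
    rw [mul_add, mul_div_cancel₀ _ δ0.ne'] at this
    have u1 := H (t₁ + (R + 1) / δ) (by linarith)
    obtain ⟨u2, u3⟩ := abs_le.1 (h t₁).2.2.1
    rcases hσ with rfl | rfl <;> linarith

theorem smono (S : Sys a p ϑ) (hp : ∀ s, 0 < p s) : StrictMono ϑ := fun _ _ h =>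
  smono_of_deriv S.dϑ h fun x _ => half_pos (hp x)

/-- the turning between two consecutive zeros of `a` is more than a quarter turn -/
theorem quarter (S : Sys a p ϑ) (hp : ∀ s, 0 < p s) {σ s t : ℝ} (hst : s < t) (ht : a t = 0)
    (hs : a s = 0) (h : ∀ x ∈ Ioo s t, 0 < σ * a x) (h' : σ * (1 - p t ^ 2 / 2) ≤ 0) :
    π / 2 < ϑ t - ϑ s := by
  by_contra! k
  have m := S.smono hp
  have d : ∀ x, HasDerivAt (fun x => 2 * (ϑ x - ϑ s)) (p x) x := fun x => by
    refine (((S.dϑ x).sub_const (ϑ s)).const_mul 2).congr_deriv ?_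
    ring
  have := smono_of_deriv (f := fun x => σ * ((4 - 2 * p x ^ 2 + 2 * a x ^ 2) * sin (2 * (ϑ x - ϑ s)) -
      4 * (a x * p x) * cos (2 * (ϑ x - ϑ s)))) (f' := fun x => 4 * (σ * a x) * sin (2 * (ϑ x - ϑ s)))
    (fun x => by
      refine (((((((S.dp x).fun_pow 2).const_mul 2).const_sub 4).fun_add
        (((S.da x).fun_pow 2).const_mul 2)).fun_mul (d x).sin |>.fun_sub
        ((((S.da x).fun_mul (S.dp x)).const_mul 4).fun_mul (d x).cos)).const_mul σ).congr_deriv ?_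
      push_cast
      ring) hst fun x hx => by
        have := m hx.1
        have := m hx.2
        exact mul_pos (mul_pos four_pos (h x hx)) (sin_pos_of_pos_of_lt_pi (by linarith) (by linarith))
  have u := sin_nonneg_of_nonneg_of_le_pi (x := 2 * (ϑ t - ϑ s)) (by linarith [m hst]) (by linarith)
  simp only [hs, ht, sub_self, mul_zero, sin_zero, zero_mul] at this
  nlinarith [mul_nonneg (neg_nonneg.2 h') u]

/-- the turning between two consecutive zeros of `a` is less than a half turn -/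
theorem half (S : Sys a p ϑ) (hp : ∀ s, 0 < p s) {σ s t : ℝ} (hst : s < t) (ht : a t = 0)
    (hs : a s = 0) (h : ∀ x ∈ Ioo s t, 0 < σ * a x) : ϑ t - ϑ s < π := by
  by_contra! k
  have m := S.smono hp
  have ct : Continuous ϑ := continuous_iff_continuousAt.2 fun x => (S.dϑ x).continuousAt
  obtain ⟨u, hu, eu⟩ := intermediate_value_Icc hst.le ct.continuousOn
    (show ϑ s + π ∈ Icc (ϑ s) (ϑ t) from ⟨by linarith [pi_pos], by linarith⟩)
  obtain ⟨v, hv, ev⟩ := intermediate_value_Icc hst.le ct.continuousOn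
    (show ϑ s + π / 2 ∈ Icc (ϑ s) (ϑ t) from ⟨by linarith [pi_pos], by linarith [pi_pos]⟩)
  have sv : s < v := m.lt_iff_lt.1 (by linarith [pi_pos])
  have vu : v < u := m.lt_iff_lt.1 (by linarith [pi_pos])
  have d : ∀ x, HasDerivAt (fun x => σ * (a x * cos (ϑ x - ϑ s) + (p x - 2 / p v) * sin (ϑ x - ϑ s)))
      (cos (ϑ x - ϑ s) * (σ * p v - σ * p x) / p v) x := fun x => by
    refine ((((S.da x).fun_mul ((S.dϑ x).sub_const (ϑ s)).cos).fun_add
      (((S.dp x).sub_const (2 / p v)).fun_mul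
        ((S.dϑ x).sub_const (ϑ s)).sin)).const_mul σ).congr_deriv ?_
    have := (hp v).ne'
    field_simp
    ring
  have mp : ∀ x y, s ≤ x → x < y → y ≤ t → σ * p x < σ * p y := fun x y h1 h2 h3 =>
    smono_of_deriv (fun s => (S.dp s).const_mul σ) h2 fun w hw => by
      have := mul_pos (h w ⟨h1.trans_lt hw.1, hw.2.trans_le h3⟩) (hp w)
      linarith
  have i1 := smono_of_deriv d sv fun x hx => div_pos (mul_pos (cos_pos_of_mem_Ioo
    ⟨by linarith [m hx.1, pi_pos], by linarith [m hx.2]⟩) (sub_pos.2 (mp x v hx.1.le hx.2 hv.2))) (hp v)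
  have i2 := smono_of_deriv d vu fun x hx => div_pos (mul_pos_of_neg_of_neg
    (cos_neg_of_pi_div_two_lt_of_lt (by linarith [m hx.1]) (by linarith [m hx.2, pi_pos]))
    (sub_neg.2 (mp v x hv.1 hx.1 (hx.2.le.trans hu.2)))) (hp v)
  have i3 := i1.trans i2
  simp only [hs, eu, sub_self, sin_zero, add_sub_cancel_left, sin_pi, cos_pi, mul_zero, zero_mul,
    add_zero] at i3
  rcases hu.2.eq_or_lt with rfl | r
  · simp [ht] at i3
  · linarith [h u ⟨sv.trans vu, r⟩]

/-- the next zero of `a` -/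
theorem next (S : Sys a p ϑ) (hp : ∀ s, 0 < p s) (hn : ∀ s, a s = 0 → p s ^ 2 ≠ 2) {σ s : ℝ}
    (hσ : σ = 1 ∨ σ = -1) (hs : a s = 0) (h : 0 < σ * (1 - p s ^ 2 / 2)) :
    ∃ t, s < t ∧ a t = 0 ∧ (∀ x ∈ Ioo s t, a x ≠ 0) ∧ 0 < -σ * (1 - p t ^ 2 / 2) ∧
      π / 2 < ϑ t - ϑ s ∧ ϑ t - ϑ s < π := by
  have ca : Continuous a := continuous_iff_continuousAt.2 fun x => (S.da x).continuousAt
  have cp : Continuous p := continuous_iff_continuousAt.2 fun x => (S.dp x).continuousAt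
  have cq : Continuous fun x => σ * (1 - p x ^ 2 / 2) := by fun_prop
  obtain ⟨ε, hε, h1⟩ := Metric.eventually_nhds_iff.1 (cq.continuousAt.eventually_const_lt h)
  have h2 : ∀ x ∈ Ioc s (s + ε / 2), 0 < σ * a x := fun x hx => by
    have := smono_of_deriv (fun s => (S.da s).const_mul σ) hx.1 fun y hy => h1 (by
      rw [Real.dist_eq, abs_lt]
      constructor <;> linarith [hy.1, hy.2, hx.2])
    rwa [hs, mul_zero] at this
  let Z := {x | s + ε / 2 ≤ x ∧ σ * a x ≤ 0}
  have Zc : IsClosed Z := (isClosed_le continuous_const continuous_id).inter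
    (isClosed_le (continuous_const.mul ca) continuous_const)
  have Zn : Z.Nonempty := by
    by_contra k
    exact S.not_sign hp hσ (s + ε / 2) fun x hx => not_le.1 fun r => k ⟨x, hx, r⟩
  have Zb : BddBelow Z := ⟨_, fun x hx => hx.1⟩
  obtain ⟨z1, z2⟩ := Zc.csInf_mem Zn Zb
  set t := sInf Z
  have st : s < t := by linarith
  have h3 : ∀ x ∈ Ioo s t, 0 < σ * a x := fun x hx => by
    rcases le_total x (s + ε / 2) with r | r
    · exact h2 x ⟨hx.1, r⟩
    · exact not_le.1 fun r' => (csInf_le Zb ⟨r, r'⟩).not_gt hx.2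
  have h4 : 0 ≤ σ * a t :=
    ge_of_tendsto ((continuous_const.mul ca).continuousAt.tendsto.mono_left
      (nhdsWithin_le_nhds (s := Iio t))) (by
        filter_upwards [Ioo_mem_nhdsLT st] with x hx using (h3 x hx).le)
  have h5 : a t = 0 := by rcases hσ with rfl | rfl <;> linarith
  have h6 : σ * (1 - p t ^ 2 / 2) ≤ 0 := by
    by_contra! k
    obtain ⟨η, hη, k1⟩ := Metric.eventually_nhds_iff.1 (cq.continuousAt.eventually_const_lt k)
    have r : max ((s + t) / 2) (t - η / 2) < t := max_lt (by linarith) (by linarith)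
    have := smono_of_deriv (fun s => (S.da s).const_mul σ) r fun y hy => k1 (by
      rw [Real.dist_eq, abs_lt]
      constructor <;> linarith [hy.1, hy.2, le_max_right ((s + t) / 2) (t - η / 2)])
    rw [h5, mul_zero] at this
    exact this.not_gt (h3 _ ⟨by linarith [le_max_left ((s + t) / 2) (t - η / 2)], r⟩)
  refine ⟨t, st, h5, fun x hx e => by simpa [e] using h3 x hx, ?_, S.quarter hp st h5 hs h3 h6,
    S.half hp st h5 hs h3⟩
  have := hn t h5
  rcases hσ with rfl | rfl <;> refine lt_of_le_of_ne (by linarith) fun e => this (by linarith)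

theorem exists_zero (S : Sys a p ϑ) (hp : ∀ s, 0 < p s) : ∃ s, a s = 0 := by
  have ca : Continuous a := continuous_iff_continuousAt.2 fun x => (S.da x).continuousAt
  have h1 := S.not_sign hp (.inl rfl) 0
  have h2 := S.not_sign hp (.inr rfl) 0
  push Not at h1 h2
  obtain ⟨x, -, h1⟩ := h1
  obtain ⟨y, -, h2⟩ := h2
  exact intermediate_value_univ x y ca ⟨by linarith, by linarith⟩

/-- zeros of `a` of both kinds -/
theorem exists_both (S : Sys a p ϑ) (hp : ∀ s, 0 < p s) (hn : ∀ s, a s = 0 → p s ^ 2 ≠ 2) :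
    (∃ s, a s = 0 ∧ p s ^ 2 < 2) ∧ ∃ s, a s = 0 ∧ 2 < p s ^ 2 := by
  obtain ⟨s, hs⟩ := S.exists_zero hp
  rcases (hn s hs).lt_or_gt with r | r
  · obtain ⟨t, -, h1, -, h2, -⟩ := S.next hp hn (.inl rfl) hs (by linarith)
    exact ⟨⟨s, hs, r⟩, t, h1, by linarith⟩
  · obtain ⟨t, -, h1, -, h2, -⟩ := S.next hp hn (.inr rfl) hs (by linarith)
    exact ⟨⟨t, h1, by linarith⟩, s, hs, r⟩

/-- a solution which closes up after one full turn is the circle -/
theorem closed (S : Sys a p ϑ) (hp : ∀ s, 0 < p s) {t₀ L : ℝ} (e1 : a (t₀ + L) = a t₀)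
    (e2 : p (t₀ + L) = p t₀) (e3 : ϑ (t₀ + L) = ϑ t₀ + 2 * π) (t : ℝ) : a t = 0 ∧ p t ^ 2 = 2 := by
  by_contra k
  have hn : ∀ s, a s = 0 → p s ^ 2 ≠ 2 := fun s h1 h2 => k (S.equil hp h1 h2 t)
  have per := (S.shift L).uniq S (fun _ => hp _) hp e1 e2
  have tu : ∀ s, ϑ (s + L) = ϑ s + 2 * π := fun s => by
    have := const_of_deriv (f := fun s => ϑ (s + L) - ϑ s) (fun s => by
      refine (((S.shift L).dϑ s).fun_sub (S.dϑ s)).congr_deriv ?_
      rw [(per s).2, sub_self]) s t₀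
    linarith
  obtain ⟨⟨s₀, z₀, q₀⟩, -⟩ := S.exists_both hp hn
  obtain ⟨s₁, -, z₁, -, q₁, c₁, b₁⟩ := S.next hp hn (.inl rfl) z₀ (by linarith)
  obtain ⟨s₂, -, z₂, -, q₂, c₂, b₂⟩ := S.next hp hn (.inr rfl) z₁ q₁
  obtain ⟨s₃, -, z₃, n₃, q₃, c₃, -⟩ := S.next hp hn (.inl rfl) z₂ (by linarith)
  obtain ⟨s₄, -, -, n₄, -, c₄, -⟩ := S.next hp hn (.inr rfl) z₃ q₃
  have m := S.smono hp
  have l1 : s₂ < s₀ + L := m.lt_iff_lt.1 (by rw [tu]; linarith)
  have l2 : s₀ + L < s₄ := m.lt_iff_lt.1 (by rw [tu]; linarith)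
  have z : a (s₀ + L) = 0 := (per s₀).1.trans z₀
  rcases lt_trichotomy (s₀ + L) s₃ with r | r | r
  · exact n₃ _ ⟨l1, r⟩ z
  · have : p s₃ = p s₀ := r ▸ (per s₀).2
    rw [this] at q₃
    linarith
  · exact n₄ _ ⟨r, l2⟩ z

end Sys

end Vale.Agent.P218N.Curve
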